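import Mathlib

/-!
# Saturated weight functions are valuations (abstract form)
(helper972, P271, block ZORN; idea of helper160, interface of helper604 [EXP])

`H` is a commutative monoid (nonzero homogeneous elements, or all nonzero elements, of a domain of
functions), `Sum f g h` means `h = f + g`, and `P` is the set of exponent vectors `k : H →₀ ℝ`
(NEGATIVE exponents allowed) such that `∏ |f|^{-2 k f}` is integrable near the point.
The threshold of a weight function `w : H → ℝ` is `sup {⟨k, w⟩ : k ∈ P, k ≥ 0}`.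
A weight function which is maximal among those with threshold `≤ c` is a valuation, and
`⟨k, v⟩ ≤ c` for ALL `k ∈ P` (also with negative exponents).
-/

namespace Vale.Agent.P271.Zorn

open Finsupp

set_option linter.style.haveILetI false

/-- `⟨k, w⟩ = ∑ k f * w f` -/
noncomputable def pair {H : Type*} (k : H →₀ ℝ) (w : H → ℝ) : ℝ := linearCombination ℝ w k

section pair
variable {H : Type*}

theorem pair_def (k : H →₀ ℝ) (w : H → ℝ) : pair k w = ∑ f ∈ k.support, k f * w f := rfl

theorem pair_eq_sum (k : H →₀ ℝ) (w : H → ℝ) : pair k w = k.sum fun f t => t * w f := rfl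

theorem pair_zero (w : H → ℝ) : pair 0 w = 0 := map_zero _

theorem pair_add (k k' : H →₀ ℝ) (w : H → ℝ) : pair (k + k') w = pair k w + pair k' w :=
  map_add _ _ _

theorem pair_sub (k k' : H →₀ ℝ) (w : H → ℝ) : pair (k - k') w = pair k w - pair k' w :=
  map_sub _ _ _

theorem pair_smul (a : ℝ) (k : H →₀ ℝ) (w : H → ℝ) : pair (a • k) w = a * pair k w :=
  map_smul _ _ _

theorem pair_single (f : H) (t : ℝ) (w : H → ℝ) : pair (single f t) w = t * w f := by
  unfold pair
  rw [linearCombination_single, smul_eq_mul]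

theorem pair_eq_sum_of_subset (k : H →₀ ℝ) (w : H → ℝ) {s : Finset H} (hs : k.support ⊆ s) :
    pair k w = ∑ f ∈ s, k f * w f := by
  rw [pair_def]
  refine Finset.sum_subset hs fun f _ hf => ?_
  rw [notMem_support_iff.mp hf, zero_mul]

theorem pair_mono (k : H →₀ ℝ) (hk : ∀ f, 0 ≤ k f) {w w' : H → ℝ}
    (h : ∀ f ∈ k.support, w f ≤ w' f) : pair k w ≤ pair k w' := by
  rw [pair_def, pair_def]
  exact Finset.sum_le_sum fun f hf => mul_le_mul_of_nonneg_left (h f hf) (hk f)

theorem pair_update [DecidableEq H] (k : H →₀ ℝ) (w : H → ℝ) (f : H) (a : ℝ) :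
    pair k (Function.update w f a) = pair k w + k f * (a - w f) := by
  rw [pair_eq_sum_of_subset k _ (Finset.subset_insert f k.support),
    pair_eq_sum_of_subset k w (Finset.subset_insert f k.support), ← sub_eq_iff_eq_add',
    ← Finset.sum_sub_distrib, Finset.sum_eq_single_of_mem f (Finset.mem_insert_self _ _)]
  · rw [Function.update_self]; ring
  · intro g _ hg
    rw [Function.update_of_ne hg]; ring

end pair

/-- The abstract data: exponent vectors of locally integrable products. -/
structure Dat (H : Type*) [CommMonoid H] where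
  /-- `Sum f g h` : `h = f + g` -/
  Sum : H → H → H → Prop
  /-- exponent vectors `k` (real, possibly negative) with `∏ |f|^{-2 k f}` integrable near the
  point -/
  P : Set (H →₀ ℝ)
  conv : Convex ℝ P
  down : ∀ k ∈ P, ∀ k' : H →₀ ℝ, (∀ f, k' f ≤ k f) → k' ∈ P
  pos : ∀ f, ∃ t : ℝ, 0 < t ∧ single f t ∈ P
  /-- `|f g|^{-2t} |f|^{2t} |g|^{2t} = 1` -/
  mul : ∀ k ∈ P, ∀ (f g : H) (t : ℝ), k + single (f * g) t - single f t - single g t ∈ P
  /-- summation formula -/
  sum : ∀ k : H →₀ ℝ, (∀ x, 0 ≤ k x) → ∀ f g h, Sum f g h → ∀ K e : ℝ, 0 < e → e ≤ K →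
    k + single h K ∈ P → ∃ K₁ K₂ : ℝ, 0 ≤ K₁ ∧ 0 ≤ K₂ ∧ K₁ + K₂ = K - e ∧
      k + single f K₁ + single g K₂ ∈ P

variable {H : Type*} [CommMonoid H]

namespace Dat

variable (D : Dat H)

/-- threshold at most `c` -/
def Le (w : H → ℝ) (c : ℝ) : Prop := ∀ k ∈ D.P, (∀ f, 0 ≤ k f) → pair k w ≤ c

/-- saturated weight function at level `c`: threshold `≤ c` and no value can be raised. -/
structure Sat (v : H → ℝ) (c : ℝ) : Prop where
  nonneg : ∀ f, 0 ≤ v f
  le : D.Le v c
  sat : ∀ f, ∀ δ : ℝ, 0 < δ → ∃ k ∈ D.P, (∀ x, 0 ≤ k x) ∧ c < pair k v + k f * δ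

theorem exists_sat (w₀ : H → ℝ) (hw₀ : ∀ f, 0 ≤ w₀ f) {c : ℝ}
    (hc : D.Le w₀ c) : ∃ v : H → ℝ, w₀ ≤ v ∧ D.Sat v c := by
  classical
  let S : Set (H → ℝ) := {v | (∀ f, 0 ≤ v f) ∧ D.Le v c}
  have hbd : ∀ f, ∃ B : ℝ, ∀ v ∈ S, v f ≤ B := by
    intro f
    obtain ⟨t, ht, htP⟩ := D.pos f
    refine ⟨c / t, fun v hv => ?_⟩
    have h1 := hv.2 _ htP (fun x => by
      by_cases hx : x = f
      · subst hx; simp [ht.le]
      · rw [single_eq_of_ne hx])
    rw [pair_single] at h1
    rw [le_div_iff₀ ht]
    linarith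
  obtain ⟨v, hv, hvmax⟩ := zorn_le_nonempty₀ S (by
    intro C hCS hC y hy
    haveI : Nonempty C := ⟨⟨y, hy⟩⟩
    haveI : IsDirected C (· ≤ ·) := ⟨fun a b => by
      rcases hC.total a.2 b.2 with h | h
      · exact ⟨b, h, le_rfl⟩
      · exact ⟨a, le_rfl, h⟩⟩
    have hb : ∀ f, BddAbove (Set.range fun v : C => (v : H → ℝ) f) := by
      intro f
      obtain ⟨B, hB⟩ := hbd f
      exact ⟨B, by rintro _ ⟨v, rfl⟩; exact hB _ (hCS v.2)⟩
    let ub : H → ℝ := fun f => ⨆ v : C, (v : H → ℝ) f
    have ht : ∀ f, Filter.Tendsto (fun v : C => (v : H → ℝ) f) Filter.atTop (nhds (ub f)) :=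
      fun f => tendsto_atTop_ciSup (fun a b hab => hab f) (hb f)
    have hle : ∀ z ∈ C, z ≤ ub := fun z hz f => le_ciSup (hb f) ⟨z, hz⟩
    refine ⟨ub, ⟨fun f => ?_, ?_⟩, hle⟩
    · exact le_trans ((hCS hy).1 f) (hle y hy f)
    · intro k hk hk0
      have h1 : Filter.Tendsto (fun v : C => pair k (v : H → ℝ)) Filter.atTop
          (nhds (pair k ub)) := by
        simp_rw [pair_def]
        exact tendsto_finsetSum _ fun f _ => (ht f).const_mul _
      exact le_of_tendsto h1 (Filter.Eventually.of_forall fun v => (hCS v.2).2 k hk hk0))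
    w₀ ⟨hw₀, hc⟩
  obtain ⟨hvS, hmax⟩ := hvmax
  refine ⟨v, hv, hvS.1, hvS.2, fun f δ hδ => ?_⟩
  by_contra hcon
  push Not at hcon
  have h1 : Function.update v f (v f + δ) ∈ S := by
    refine ⟨fun g => ?_, fun k hk hk0 => ?_⟩
    · by_cases hg : g = f
      · subst hg
        rw [Function.update_self]
        linarith [hvS.1 g]
      · rw [Function.update_of_ne hg]
        exact hvS.1 g
    · rw [pair_update]
      have := hcon k hk hk0
      linarith
  have h2 : v ≤ Function.update v f (v f + δ) := by
    intro g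
    by_cases hg : g = f
    · subst hg
      rw [Function.update_self]
      linarith
    · rw [Function.update_of_ne hg]
  have h3 := hmax h1 h2 f
  rw [Function.update_self] at h3
  linarith

variable {D}

/-- if raising the value at `f` to `a` keeps the threshold then `a ≤ v f`. -/
theorem Sat.le_of {v : H → ℝ} {c : ℝ} (h : D.Sat v c) {f : H} {a : ℝ}
    (ha : ∀ k ∈ D.P, (∀ x, 0 ≤ k x) → pair k v + k f * (a - v f) ≤ c) : a ≤ v f := by
  by_contra hcon
  push Not at hcon
  obtain ⟨k, hk, hk0, hk'⟩ := h.sat f (a - v f) (by linarith)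
  linarith [ha k hk hk0]

/-- **`⟨k, v⟩ ≤ c` for all `k ∈ P`, also with negative exponents**
(`v(g) + A(v) ≥ v(k)` if `|g|^2 ∏ |f|^{-2 k f}` is integrable; contains helper160's (R2)). -/
theorem Sat.le_all {v : H → ℝ} {c : ℝ} (h : D.Sat v c) : ∀ k ∈ D.P, pair k v ≤ c := by
  classical
  have key : ∀ n : ℕ, ∀ k ∈ D.P, (k.support.filter fun x => k x < 0).card = n →
      pair k v ≤ c := by
    intro n
    induction n using Nat.strong_induction_on with
    | _ n ih =>
      intro k hk hn
      by_cases hneg : ∃ g, k g < 0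
      · obtain ⟨g, hg⟩ := hneg
        obtain ⟨t, ht⟩ : ∃ t, t = - k g := ⟨_, rfl⟩
        have ht0 : 0 < t := by rw [ht]; linarith
        refine le_of_forall_pos_le_add fun ε hε => ?_
        obtain ⟨k', hk', hk'0, hkc⟩ := h.sat g (ε / t) (by positivity)
        have hle := h.le k' hk' hk'0
        obtain ⟨K, hKdef⟩ : ∃ K, K = k' g := ⟨_, rfl⟩
        have hK : 0 < K := by
          have h0 : 0 ≤ k' g := hk'0 g
          rcases h0.lt_or_eq with h1 | h1
          · rw [hKdef]; exact h1
          · rw [← h1] at hkc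
            linarith
        have hS : 0 < t + K := by positivity
        have hcomb : (t / (t + K)) • k' + (K / (t + K)) • k ∈ D.P :=
          D.conv hk' hk (by positivity) (by positivity) (by rw [← add_div, div_self hS.ne'])
        have hval : ∀ x, ((t / (t + K)) • k' + (K / (t + K)) • k) x
            = (t * k' x + K * k x) / (t + K) := by
          intro x
          simp only [Finsupp.add_apply, Finsupp.smul_apply, smul_eq_mul]
          field_simp
        have hlt : (((t / (t + K)) • k' + (K / (t + K)) • k).support.filter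
            fun x => ((t / (t + K)) • k' + (K / (t + K)) • k) x < 0).card < n := by
          rw [← hn]
          apply Finset.card_lt_card
          rw [Finset.ssubset_iff_of_subset]
          · refine ⟨g, ?_, ?_⟩
            · rw [Finset.mem_filter, mem_support_iff]
              exact ⟨hg.ne, hg⟩
            · rw [Finset.mem_filter, not_and]
              intro _
              rw [hval g, ← hKdef]
              have : t * K + K * k g = 0 := by rw [ht]; ring
              rw [this, zero_div]
              exact lt_irrefl 0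
          · intro x hx
            rw [Finset.mem_filter] at hx ⊢
            have h1 := hx.2
            rw [hval x, div_lt_iff₀ hS, zero_mul] at h1
            have h2 : 0 ≤ t * k' x := mul_nonneg ht0.le (hk'0 x)
            have h3 : k x < 0 := by
              by_contra hcon
              push Not at hcon
              have := mul_nonneg hK.le hcon
              linarith
            exact ⟨mem_support_iff.mpr h3.ne, h3⟩
        have h1 := ih _ hlt _ hcomb rfl
        rw [pair_add, pair_smul, pair_smul] at h1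
        have h2 : t / (t + K) * pair k' v + K / (t + K) * pair k v
            = (t * pair k' v + K * pair k v) / (t + K) := by
          field_simp
        rw [h2, div_le_iff₀ hS] at h1
        rw [← hKdef] at hkc
        have h3 : t * (c - K * (ε / t)) ≤ t * pair k' v := by
          apply mul_le_mul_of_nonneg_left _ ht0.le
          linarith
        have h4 : t * (c - K * (ε / t)) = t * c - K * ε := by
          field_simp
        have h5 : K * pair k v ≤ K * (c + ε) := by
          rw [h4] at h3
          nlinarith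
        exact le_of_mul_le_mul_left h5 hK
      · push Not at hneg
        exact h.le k hk hneg
  intro k hk
  exact key _ k hk rfl

/-- two-sided invariance forces the value. -/
theorem Sat.eq_zero_of {v : H → ℝ} {c : ℝ} (h : D.Sat v c) (k : H →₀ ℝ)
    (hk : ∀ t : ℝ, t • k ∈ D.P) : pair k v = 0 := by
  have h1 : ∀ t : ℝ, t * pair k v ≤ c := by
    intro t
    have := h.le_all _ (hk t)
    rwa [pair_smul] at this
  by_contra hne
  have h2 := h1 ((|c| + 1) / pair k v)
  rw [div_mul_cancel₀ _ hne] at h2
  linarith [le_abs_self c]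

theorem zero_mem (D : Dat H) : (0 : H →₀ ℝ) ∈ D.P := by
  obtain ⟨t, ht, htP⟩ := D.pos 1
  refine D.down _ htP 0 fun f => ?_
  rw [Finsupp.coe_zero, Pi.zero_apply]
  by_cases hx : f = 1
  · subst hx; simp [ht.le]
  · rw [single_eq_of_ne hx]

theorem Sat.mul {v : H → ℝ} {c : ℝ} (h : D.Sat v c) (f g : H) : v (f * g) = v f + v g := by
  have h1 : pair (single (f * g) 1 - single f 1 - single g 1) v = 0 := by
    refine h.eq_zero_of _ fun t => ?_
    have := D.mul 0 D.zero_mem f g t
    have heq : t • (single (f * g) (1 : ℝ) - single f 1 - single g 1)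
        = 0 + single (f * g) t - single f t - single g t := by
      rw [smul_sub, smul_sub, zero_add]
      simp only [smul_single, smul_eq_mul, mul_one]
    rw [heq]
    exact this
  rw [pair_sub, pair_sub, pair_single, pair_single, pair_single] at h1
  linarith

theorem Sat.one {v : H → ℝ} {c : ℝ} (h : D.Sat v c) : v 1 = 0 := by
  have := h.mul 1 1
  rw [one_mul] at this
  linarith

/-- elements which may be inserted with any exponent (nonvanishing at the point) have value `0`. -/
theorem Sat.eq_zero {v : H → ℝ} {c : ℝ} (h : D.Sat v c) {f : H}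
    (hf : ∀ t : ℝ, single f t ∈ D.P) : v f = 0 := by
  have h1 := h.eq_zero_of (single f 1) fun t => by
    rw [smul_single, smul_eq_mul, mul_one]
    exact hf t
  rw [pair_single, one_mul] at h1
  exact h1

theorem Sat.pow {v : H → ℝ} {c : ℝ} (h : D.Sat v c) (f : H) (n : ℕ) : v (f ^ n) = n * v f := by
  induction n with
  | zero => rw [pow_zero, h.one]; simp
  | succ n ih => rw [pow_succ, h.mul, ih]; push_cast; ring

theorem Sat.sum {v : H → ℝ} {c : ℝ} (h : D.Sat v c) {f g s : H} (hs : D.Sum f g s) :
    min (v f) (v g) ≤ v s := by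
  classical
  refine h.le_of fun k hk hk0 => ?_
  obtain ⟨K, hK⟩ : ∃ K, K = k s := ⟨_, rfl⟩
  have hK0 : 0 ≤ K := by rw [hK]; exact hk0 _
  let k0 : H →₀ ℝ := k - single s K
  have hk00 : ∀ x, 0 ≤ k0 x := by
    intro x
    simp only [k0, Finsupp.sub_apply]
    by_cases hx : x = s
    · rw [hx]; simp [hK]
    · rw [single_eq_of_ne hx, sub_zero]; exact hk0 x
  have heq : k = k0 + single s K := by simp [k0]
  have h3 : pair k v = pair k0 v + K * v s := by
    conv_lhs => rw [heq]
    rw [pair_add, pair_single]
  rw [h3, ← hK]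
  have hm0 : 0 ≤ min (v f) (v g) := le_min (h.nonneg f) (h.nonneg g)
  suffices hsuff : ∀ e : ℝ, 0 < e → pair k0 v + K * min (v f) (v g) ≤ c + e * min (v f) (v g) by
    have : pair k0 v + K * min (v f) (v g) ≤ c := by
      refine le_of_forall_pos_le_add fun ε hε => ?_
      have h4 := hsuff (ε / (min (v f) (v g) + 1)) (by positivity)
      have h5 : ε / (min (v f) (v g) + 1) * min (v f) (v g) ≤ ε := by
        rw [div_mul_eq_mul_div, div_le_iff₀ (by positivity)]
        nlinarith
      linarith
    linarith
  intro e he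
  rcases le_or_gt e K with heK | heK
  · obtain ⟨K₁, K₂, hK1, hK2, hsum, hmem⟩ := D.sum k0 hk00 f g s hs K e he heK (by
      rw [← heq]; exact hk)
    have h1 := h.le _ hmem (fun x => by
      rw [Finsupp.add_apply, Finsupp.add_apply]
      have h2 : 0 ≤ single f K₁ x := by
        by_cases hx : x = f
        · subst hx; simp [hK1]
        · rw [single_eq_of_ne hx]
      have h3 : 0 ≤ single g K₂ x := by
        by_cases hx : x = g
        · subst hx; simp [hK2]
        · rw [single_eq_of_ne hx]
      linarith [hk00 x])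
    rw [pair_add, pair_add, pair_single, pair_single] at h1
    have h4 : K₁ * min (v f) (v g) ≤ K₁ * v f := mul_le_mul_of_nonneg_left (min_le_left _ _) hK1
    have h5 : K₂ * min (v f) (v g) ≤ K₂ * v g := mul_le_mul_of_nonneg_left (min_le_right _ _) hK2
    have h6 : (K - e) * min (v f) (v g) = K₁ * min (v f) (v g) + K₂ * min (v f) (v g) := by
      rw [← hsum]; ring
    nlinarith
  · have h1 : pair k0 v ≤ c := by
      refine h.le k0 (D.down k hk k0 fun x => ?_) hk00
      simp only [k0, Finsupp.sub_apply]
      by_cases hx : x = s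
      · rw [hx]; simp [hK0]
      · rw [single_eq_of_ne hx, sub_zero]
    have h2 : K * min (v f) (v g) ≤ e * min (v f) (v g) :=
      mul_le_mul_of_nonneg_right heK.le hm0
    linarith

/-- (R2): `v g = 0` and `|g|^{2t} ∏ |f|^{-2 k f}` integrable imply `⟨k, v⟩ ≤ c`. -/
theorem Sat.cancel {v : H → ℝ} {c : ℝ} (h : D.Sat v c) {g : H} {k : H →₀ ℝ} {t : ℝ}
    (hk : k - single g t ∈ D.P) : pair k v ≤ c + t * v g := by
  have := h.le_all _ hk
  rw [pair_sub, pair_single] at this
  linarith

end Dat

end Vale.Agent.P271.Zorn
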