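import Vale.Agent.P271.Zorn.Abs

/-!
# Concrete exponent sets: elementary properties (A1), (A2), (A3), (A6)
(helper972, P271, block EXP-EL)

`μ` a measure on `X`, `l` a filter (near the point), `ev : H → X → ℂ`.
-/

namespace Vale.Agent.P271.Zorn

open MeasureTheory Filter Topology Finsupp
open scoped ENNReal

set_option linter.unusedSectionVars false

variable {H X : Type*} [MeasurableSpace X]

/-- local integrability along the filter `l` -/
def LI (μ : Measure X) (l : Filter X) (h : X → ℝ≥0∞) : Prop :=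
  ∃ U ∈ l, ∫⁻ x in U, h x ∂μ < ∞

/-- `log ∏ |f|^{k f}` -/
noncomputable def lg (ev : H → X → ℂ) (k : H →₀ ℝ) (x : X) : ℝ :=
  pair k fun f => Real.log ‖ev f x‖

/-- `∏ |f|^{-2 k f}` -/
noncomputable def wt (ev : H → X → ℂ) (k : H →₀ ℝ) (x : X) : ℝ≥0∞ :=
  ENNReal.ofReal (Real.exp (-2 * lg ev k x))

/-- the exponent set at `l` -/
def PP (μ : Measure X) (l : Filter X) (ev : H → X → ℂ) : Set (H →₀ ℝ) :=
  {k | LI μ l (wt ev k)}

theorem lg_add (ev : H → X → ℂ) (k k' : H →₀ ℝ) (x : X) :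
    lg ev (k + k') x = lg ev k x + lg ev k' x := pair_add _ _ _

theorem lg_sub (ev : H → X → ℂ) (k k' : H →₀ ℝ) (x : X) :
    lg ev (k - k') x = lg ev k x - lg ev k' x := pair_sub _ _ _

theorem lg_smul (ev : H → X → ℂ) (a : ℝ) (k : H →₀ ℝ) (x : X) :
    lg ev (a • k) x = a * lg ev k x := pair_smul _ _ _

theorem lg_single (ev : H → X → ℂ) (f : H) (t : ℝ) (x : X) :
    lg ev (single f t) x = t * Real.log ‖ev f x‖ := pair_single _ _ _

theorem lg_zero (ev : H → X → ℂ) (x : X) : lg ev 0 x = 0 := pair_zero _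

/-- the filter `l` has a basis of null-measurable sets -/
def Bas (μ : Measure X) (l : Filter X) : Prop :=
  ∀ U ∈ l, ∃ U' ∈ l, U' ⊆ U ∧ NullMeasurableSet U' μ

theorem LI.mono {μ : Measure X} {l : Filter X} (hl : Bas μ l) {h h' : X → ℝ≥0∞}
    (hle : ∀ᶠ x in l ⊓ ae μ, h' x ≤ h x) (hh : LI μ l h) : LI μ l h' := by
  obtain ⟨U, hU, hlt⟩ := hh
  rw [Filter.eventually_inf] at hle
  obtain ⟨V, hV, T, hT, hVT⟩ := hle
  obtain ⟨U', hU', hsub, hmeas⟩ := hl (U ∩ V) (inter_mem hU hV)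
  refine ⟨U', hU', lt_of_le_of_lt ?_ hlt⟩
  refine le_trans (lintegral_mono_ae ?_) (lintegral_mono_set (hsub.trans Set.inter_subset_left))
  rw [ae_restrict_iff'₀ hmeas]
  filter_upwards [hT] with x hx hxU
  exact hVT x ⟨(hsub hxU).2, hx⟩

theorem LI.const_mul {μ : Measure X} {l : Filter X} {h : X → ℝ≥0∞} {C : ℝ≥0∞} (hC : C ≠ ∞)
    (hh : LI μ l h) : LI μ l (fun x => C * h x) := by
  obtain ⟨U, hU, hlt⟩ := hh
  refine ⟨U, hU, ?_⟩
  rw [lintegral_const_mul' _ _ hC]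
  exact ENNReal.mul_lt_top hC.lt_top hlt

theorem LI.add {μ : Measure X} {l : Filter X} {h h' : X → ℝ≥0∞}
    (hm : ∃ U ∈ l, AEMeasurable h (μ.restrict U)) (hh : LI μ l h) (hh' : LI μ l h') :
    LI μ l (fun x => h x + h' x) := by
  obtain ⟨U, hU, hlt⟩ := hh
  obtain ⟨V, hV, hlt'⟩ := hh'
  obtain ⟨W, hW, hm⟩ := hm
  refine ⟨U ∩ V ∩ W, inter_mem (inter_mem hU hV) hW, ?_⟩
  rw [lintegral_add_left' (hm.mono_measure (Measure.restrict_mono_set _ Set.inter_subset_right))]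
  refine ENNReal.add_lt_top.mpr ⟨?_, ?_⟩
  · exact (lintegral_mono_set (Set.inter_subset_left.trans Set.inter_subset_left)).trans_lt hlt
  · exact (lintegral_mono_set (Set.inter_subset_left.trans Set.inter_subset_right)).trans_lt hlt'

/-- The standing assumptions on the evaluation. -/
structure IsEv (μ : Measure X) (l : Filter X) [CommMonoid H] (ev : H → X → ℂ) : Prop where
  bas : Bas μ l
  meas : ∀ f, ∃ U ∈ l, AEMeasurable (ev f) (μ.restrict U)
  mul : ∀ f g, ∀ᶠ x in l ⊓ ae μ, ev (f * g) x = ev f x * ev g x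
  ne : ∀ f, ∀ᶠ x in l ⊓ ae μ, ev f x ≠ 0
  bdd : ∀ f, ∃ C : ℝ, ∀ᶠ x in l ⊓ ae μ, ‖ev f x‖ ≤ C

namespace IsEv

variable {μ : Measure X} {l : Filter X} [CommMonoid H] {ev : H → X → ℂ}

theorem meas_lg (h : IsEv μ l ev) (k : H →₀ ℝ) :
    ∃ U ∈ l, AEMeasurable (lg ev k) (μ.restrict U) := by
  choose U hU hm using h.meas
  refine ⟨⋂ f ∈ k.support, U f, (biInter_finset_mem _).mpr fun f _ => hU f, ?_⟩
  have h1 : lg ev k = fun x => ∑ f ∈ k.support, k f * Real.log ‖ev f x‖ := by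
    funext x
    rw [lg, pair_def]
  rw [h1]
  refine Finset.aemeasurable_fun_sum _ fun f hf => ?_
  refine AEMeasurable.const_mul ?_ _
  refine Real.measurable_log.comp_aemeasurable ?_
  refine AEMeasurable.norm ?_
  exact (hm f).mono_measure (Measure.restrict_mono_set _ (Set.biInter_subset_of_mem hf))

theorem meas_wt (h : IsEv μ l ev) (k : H →₀ ℝ) :
    ∃ U ∈ l, AEMeasurable (wt ev k) (μ.restrict U) := by
  obtain ⟨U, hU, hm⟩ := h.meas_lg k
  exact ⟨U, hU, (Real.measurable_exp.comp_aemeasurable (hm.const_mul _)).ennreal_ofReal⟩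

/-- (A1) -/
theorem conv (h : IsEv μ l ev) : Convex ℝ (PP μ l ev) := by
  intro k hk k' hk' a b ha hb hab
  have h1 : LI μ l fun x => ENNReal.ofReal a * wt ev k x + ENNReal.ofReal b * wt ev k' x := by
    refine LI.add ?_ (LI.const_mul ENNReal.ofReal_ne_top hk) (LI.const_mul ENNReal.ofReal_ne_top hk')
    obtain ⟨U, hU, hm⟩ := h.meas_wt k
    exact ⟨U, hU, hm.const_mul _⟩
  refine LI.mono h.bas (Eventually.of_forall fun x => ?_) h1
  unfold wt
  rw [← ENNReal.ofReal_mul ha, ← ENNReal.ofReal_mul hb, ← ENNReal.ofReal_add (by positivity)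
    (by positivity)]
  apply ENNReal.ofReal_le_ofReal
  rw [lg_add, lg_smul, lg_smul]
  have h2 := convexOn_exp.2 (Set.mem_univ (-2 * lg ev k x)) (Set.mem_univ (-2 * lg ev k' x))
    ha hb hab
  simp only [smul_eq_mul] at h2
  have h3 : a * (-2 * lg ev k x) + b * (-2 * lg ev k' x)
      = -2 * (a * lg ev k x + b * lg ev k' x) := by ring
  rwa [h3] at h2

/-- comparison: `lg k ≤ lg k' + C` near `l` and `k ∈ P` imply `k' ∈ P`. -/
theorem mem_of_le (h : IsEv μ l ev) {k k' : H →₀ ℝ} {C : ℝ}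
    (hle : ∀ᶠ x in l ⊓ ae μ, lg ev k x ≤ lg ev k' x + C) (hk : k ∈ PP μ l ev) :
    k' ∈ PP μ l ev := by
  refine LI.mono h.bas ?_
    (LI.const_mul (C := ENNReal.ofReal (Real.exp (2 * C))) ENNReal.ofReal_ne_top hk)
  filter_upwards [hle] with x hx
  unfold wt
  rw [← ENNReal.ofReal_mul (by positivity), ← Real.exp_add]
  apply ENNReal.ofReal_le_ofReal
  apply Real.exp_le_exp.mpr
  linarith

theorem mem_congr (h : IsEv μ l ev) {k k' : H →₀ ℝ}
    (he : ∀ᶠ x in l ⊓ ae μ, lg ev k x = lg ev k' x) : k ∈ PP μ l ev ↔ k' ∈ PP μ l ev := by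
  constructor
  · exact h.mem_of_le (C := 0) (by filter_upwards [he] with x hx; linarith)
  · exact h.mem_of_le (C := 0) (by filter_upwards [he] with x hx; linarith)

theorem lg_le_of_nonneg (h : IsEv μ l ev) (k : H →₀ ℝ) (hk : ∀ f, 0 ≤ k f) :
    ∃ C : ℝ, ∀ᶠ x in l ⊓ ae μ, lg ev k x ≤ C := by
  choose B hB using h.bdd
  refine ⟨∑ f ∈ k.support, k f * |B f|, ?_⟩
  have h1 : ∀ᶠ x in l ⊓ ae μ, ∀ f ∈ k.support, ‖ev f x‖ ≤ B f :=
    (Filter.eventually_all_finset _).mpr fun f _ => hB f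
  filter_upwards [h1] with x hx
  rw [lg, pair_def]
  refine Finset.sum_le_sum fun f hf => ?_
  apply mul_le_mul_of_nonneg_left _ (hk f)
  have h2 := hx f hf
  by_cases h0 : ‖ev f x‖ = 0
  · rw [h0, Real.log_zero]
    positivity
  · have h3 : Real.log ‖ev f x‖ ≤ ‖ev f x‖ := by
      have := Real.log_le_sub_one_of_pos (lt_of_le_of_ne (norm_nonneg _) (Ne.symm h0))
      linarith
    exact h3.trans (h2.trans (le_abs_self _))

/-- (A2) -/
theorem down (h : IsEv μ l ev) (k : H →₀ ℝ) (hk : k ∈ PP μ l ev) (k' : H →₀ ℝ)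
    (hle : ∀ f, k' f ≤ k f) : k' ∈ PP μ l ev := by
  obtain ⟨C, hC⟩ := h.lg_le_of_nonneg (k - k') (fun f => by
    rw [Finsupp.sub_apply]
    linarith [hle f])
  refine h.mem_of_le (C := C) ?_ hk
  filter_upwards [hC] with x hx
  rw [lg_sub] at hx
  linarith

/-- (A3) -/
theorem mem_mul (h : IsEv μ l ev) (k : H →₀ ℝ) (hk : k ∈ PP μ l ev) (f g : H) (t : ℝ) :
    k + single (f * g) t - single f t - single g t ∈ PP μ l ev := by
  refine (h.mem_congr ?_).mp hk
  filter_upwards [h.mul f g, h.ne f, h.ne g] with x hx hf hg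
  rw [lg_sub, lg_sub, lg_add, lg_single, lg_single, lg_single, hx, norm_mul,
    Real.log_mul (norm_ne_zero_iff.mpr hf) (norm_ne_zero_iff.mpr hg)]
  ring

/-- (A6) -/
theorem mem_unit (h : IsEv μ l ev) {f : H} {c : ℝ} (hc : 0 < c)
    (hf : ∀ᶠ x in l ⊓ ae μ, c ≤ ‖ev f x‖) (k : H →₀ ℝ) (hk : k ∈ PP μ l ev) (t : ℝ) :
    k + single f t ∈ PP μ l ev := by
  obtain ⟨C, hC⟩ := h.bdd f
  refine h.mem_of_le (C := |t| * (|Real.log c| + |C|)) ?_ hk
  filter_upwards [hf, hC] with x hx hxC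
  rw [lg_add, lg_single]
  have h0 : 0 < ‖ev f x‖ := lt_of_lt_of_le hc hx
  have h1 : Real.log c ≤ Real.log ‖ev f x‖ := Real.log_le_log hc hx
  have h2 : Real.log ‖ev f x‖ ≤ C := by
    have := Real.log_le_sub_one_of_pos h0
    linarith
  have h3 : |Real.log ‖ev f x‖| ≤ |Real.log c| + |C| := by
    rw [abs_le]
    constructor
    · have := neg_abs_le (Real.log c)
      have := abs_nonneg C
      linarith
    · have := le_abs_self C
      have := abs_nonneg (Real.log c)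
      linarith
  have h4 : |t * Real.log ‖ev f x‖| ≤ |t| * (|Real.log c| + |C|) := by
    rw [abs_mul]
    exact mul_le_mul_of_nonneg_left h3 (abs_nonneg t)
  have h5 := neg_abs_le (t * Real.log ‖ev f x‖)
  linarith

theorem zero_mem (_h : IsEv μ l ev) (hfin : ∃ U ∈ l, μ U < ∞) : (0 : H →₀ ℝ) ∈ PP μ l ev := by
  obtain ⟨U, hU, hlt⟩ := hfin
  refine ⟨U, hU, ?_⟩
  have h1 : wt ev (0 : H →₀ ℝ) = fun _ => 1 := by
    funext x
    unfold wt
    rw [lg_zero]
    simp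
  rw [h1]
  simpa using hlt

/-- The abstract data of `Abs.lean` from a concrete evaluation, (A4) and (A5). -/
def dat (h : IsEv μ l ev) (Sum : H → H → H → Prop)
    (hpos : ∀ f, ∃ t : ℝ, 0 < t ∧ single f t ∈ PP μ l ev)
    (hsum : ∀ k : H →₀ ℝ, (∀ x, 0 ≤ k x) → ∀ f g s, Sum f g s → ∀ K e : ℝ, 0 < e → e ≤ K →
      k + single s K ∈ PP μ l ev → ∃ K₁ K₂ : ℝ, 0 ≤ K₁ ∧ 0 ≤ K₂ ∧ K₁ + K₂ = K - e ∧
        k + single f K₁ + single g K₂ ∈ PP μ l ev) : Dat H where
  Sum := Sum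
  P := PP μ l ev
  conv := h.conv
  down := h.down
  pos := hpos
  mul := h.mem_mul
  sum := hsum

end IsEv

end Vale.Agent.P271.Zorn
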