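import Vale.Agent.P271.Zorn.LocInt

/-!
# (R2) for max-type weights (helper972, P271; statement and proof of helper84 / helper270)

`mx ev S w x = max_{s ∈ S} (1 / w s) log |s(x)|`.
(A11) trivial converse, (A10) = hard half of Fact 1 is a hypothesis.
-/

namespace Vale.Agent.P271.Zorn

open MeasureTheory Filter Topology Finsupp
open scoped ENNReal

set_option linter.unusedSectionVars false

variable {H X : Type*} [MeasurableSpace X]

/-- the max-type weight `max_{s ∈ S} (1 / w s) log |s(x)|` -/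
noncomputable def mx (ev : H → X → ℂ) (S : Finset H) (hS : S.Nonempty) (w : H → ℝ) (x : X) : ℝ :=
  S.sup' hS fun s => Real.log ‖ev s x‖ / w s

theorem log_le_mx (ev : H → X → ℂ) {S : Finset H} (hS : S.Nonempty) {w : H → ℝ} {s : H}
    (hs : s ∈ S) (hw : 0 < w s) (x : X) : Real.log ‖ev s x‖ ≤ w s * mx ev S hS w x := by
  have h1 : Real.log ‖ev s x‖ / w s ≤ mx ev S hS w x :=
    Finset.le_sup' (fun s => Real.log ‖ev s x‖ / w s) hs
  rw [div_le_iff₀ hw] at h1
  linarith

theorem mx_mono (ev : H → X → ℂ) {S S' : Finset H} (hS : S.Nonempty) (hS' : S'.Nonempty)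
    (h : S ⊆ S') (w : H → ℝ) (x : X) : mx ev S hS w x ≤ mx ev S' hS' w x :=
  Finset.sup'_mono _ h _

theorem lg_le_mx (ev : H → X → ℂ) {S : Finset H} (hS : S.Nonempty) {w : H → ℝ} {k : H →₀ ℝ}
    (hk : ∀ f, 0 ≤ k f) (hkS : k.support ⊆ S) (hw : ∀ s ∈ S, 0 < w s) (x : X) :
    lg ev k x ≤ pair k w * mx ev S hS w x := by
  rw [lg, pair_def, pair_def, Finset.sum_mul]
  refine Finset.sum_le_sum fun f hf => ?_
  rw [mul_assoc]
  exact mul_le_mul_of_nonneg_left (log_le_mx ev hS (hkS hf) (hw f (hkS hf)) x) (hk f)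

variable {μ : Measure X} {l : Filter X} [CommMonoid H] {ev : H → X → ℂ}

namespace IsEv

theorem mx_bdd (h : IsEv μ l ev) (S : Finset H) (hS : S.Nonempty) (w : H → ℝ)
    (hw : ∀ s ∈ S, 0 < w s) : ∃ C : ℝ, 0 ≤ C ∧ ∀ᶠ x in l ⊓ ae μ, mx ev S hS w x ≤ C := by
  choose B hB using h.bdd
  refine ⟨∑ s ∈ S, |B s| / w s, Finset.sum_nonneg fun s hs => by have := hw s hs; positivity, ?_⟩
  have h1 : ∀ᶠ x in l ⊓ ae μ, ∀ f ∈ S, ‖ev f x‖ ≤ B f :=
    (Filter.eventually_all_finset _).mpr fun f _ => hB f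
  have h2 : ∀ᶠ x in l ⊓ ae μ, ∀ f ∈ S, ev f x ≠ 0 :=
    (Filter.eventually_all_finset _).mpr fun f _ => h.ne f
  filter_upwards [h1, h2] with x hx hx0
  refine Finset.sup'_le _ _ fun s hs => ?_
  have h3 : Real.log ‖ev s x‖ ≤ |B s| := by
    have := Real.log_le_sub_one_of_pos (norm_pos_iff.mpr (hx0 s hs))
    have := hx s hs
    have := le_abs_self (B s)
    linarith
  refine (div_le_div_of_nonneg_right h3 (hw s hs).le).trans ?_
  exact Finset.single_le_sum (f := fun s => |B s| / w s)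
    (fun s hs => by have := hw s hs; positivity) hs

/-- (A11) trivial half of Fact 1. -/
theorem li_mx_of_mem (h : IsEv μ l ev) {S : Finset H} (hS : S.Nonempty) {w : H → ℝ}
    (hw : ∀ s ∈ S, 0 < w s) {k : H →₀ ℝ} (hk : ∀ f, 0 ≤ k f) (hkS : k.support ⊆ S)
    (hmem : k ∈ PP μ l ev) :
    LI μ l fun x => ENNReal.ofReal (Real.exp (-2 * (pair k w * mx ev S hS w x))) := by
  refine LI.mono h.bas (Eventually.of_forall fun x => ?_) hmem
  unfold wt
  apply ENNReal.ofReal_le_ofReal
  apply Real.exp_le_exp.mpr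
  have := lg_le_mx ev hS hk hkS hw x
  linarith

/-- lowering the exponent -/
theorem li_mx_anti (h : IsEv μ l ev) {S : Finset H} (hS : S.Nonempty) {w : H → ℝ}
    (hw : ∀ s ∈ S, 0 < w s) {c c' : ℝ} (hc : c ≤ c')
    (hmem : LI μ l fun x => ENNReal.ofReal (Real.exp (-2 * (c' * mx ev S hS w x)))) :
    LI μ l fun x => ENNReal.ofReal (Real.exp (-2 * (c * mx ev S hS w x))) := by
  obtain ⟨C, hC0, hC⟩ := h.mx_bdd S hS w hw
  refine LI.mono h.bas ?_ (LI.const_mul (C := ENNReal.ofReal (Real.exp (2 * ((c' - c) * C))))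
    ENNReal.ofReal_ne_top hmem)
  filter_upwards [hC] with x hx
  rw [← ENNReal.ofReal_mul (by positivity), ← Real.exp_add]
  apply ENNReal.ofReal_le_ofReal
  apply Real.exp_le_exp.mpr
  have : (c' - c) * mx ev S hS w x ≤ (c' - c) * C :=
    mul_le_mul_of_nonneg_left hx (by linarith)
  linarith

/-- **(R2), max form**: if `v` is saturated at level `c`, `v ≥ 0` small on `g`
(`t * v g < c' - c`), then `|g|^{2t} e^{-2 c' φ_{S,v}}` is not integrable near the point.
`hA10` is the hard half of Fact 1. -/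
theorem not_li_of_sat (h : IsEv μ l ev) {D : Dat H} (hD : D.P = PP μ l ev)
    (hA10 : ∀ (S : Finset H) (hS : S.Nonempty) (w : H → ℝ), (∀ s ∈ S, 0 < w s) → ∀ c : ℝ, 0 < c →
      (LI μ l fun x => ENNReal.ofReal (Real.exp (-2 * (c * mx ev S hS w x)))) →
      ∀ ε : ℝ, 0 < ε → ∃ k ∈ PP μ l ev, (∀ f, 0 ≤ k f) ∧ k.support ⊆ S ∧ c - ε ≤ pair k w)
    {v : H → ℝ} {c : ℝ} (hv : D.Sat v c) {S : Finset H} (hS : S.Nonempty)
    (hvS : ∀ s ∈ S, 0 < v s) {g : H} {t c' : ℝ} (ht : 0 < t) (hc' : c + t * v g < c') :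
    ¬ LI μ l fun x => ENNReal.ofReal (Real.exp (2 * (t * Real.log ‖ev g x‖))) *
      ENNReal.ofReal (Real.exp (-2 * (c' * mx ev S hS v x))) := by
  classical
  intro hcon
  -- the raised value at `g`
  obtain ⟨δ, hδdef⟩ : ∃ δ, δ = (c' - c - t * v g) / (2 * t) := ⟨_, rfl⟩
  have hδ : 0 < δ := by rw [hδdef]; apply div_pos <;> linarith
  have htδ : t * δ = (c' - c - t * v g) / 2 := by
    rw [hδdef]; field_simp
  have hvg := hv.nonneg g
  have hc0 : 0 ≤ c := by
    have := hv.le 0 (Dat.zero_mem D) (fun _ => le_rfl)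
    rwa [pair_zero] at this
  obtain ⟨k, hk, hk0, hkc⟩ := hv.sat g δ hδ
  rw [hD] at hk
  -- drop the elements of value zero
  let v' : H → ℝ := Function.update v g (v g + δ)
  have hv'g : v' g = v g + δ := Function.update_self _ _ _
  have hv'ne : ∀ s, s ≠ g → v' s = v s := fun s hs => Function.update_of_ne hs _ _
  have hvv' : ∀ s, v s ≤ v' s := by
    intro s
    by_cases hs : s = g
    · rw [hs, hv'g]; linarith
    · rw [hv'ne s hs]
  have hkc' : c < pair k v' := by
    rw [pair_update]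
    have : v g + δ - v g = δ := by ring
    rw [this]
    exact hkc
  let k1 : H →₀ ℝ := k.filter fun s => 0 < v' s
  have hk1 : ∀ f, 0 ≤ k1 f := by
    intro f
    simp only [k1, Finsupp.filter_apply]
    split_ifs
    · exact hk0 f
    · exact le_rfl
  have hk1le : ∀ f, k1 f ≤ k f := by
    intro f
    simp only [k1, Finsupp.filter_apply]
    split_ifs
    · exact le_rfl
    · exact hk0 f
  have hk1mem : k1 ∈ PP μ l ev := h.down k hk k1 hk1le
  have hk1pair : pair k1 v' = pair k v' := by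
    have hsub : k1.support ⊆ k.support := by
      simp only [k1, Finsupp.support_filter]
      exact Finset.filter_subset _ _
    rw [pair_eq_sum_of_subset k1 v' hsub, pair_def]
    refine Finset.sum_congr rfl fun f _ => ?_
    simp only [k1, Finsupp.filter_apply]
    split_ifs with hf
    · rfl
    · have h0 : v' f = 0 := le_antisymm (not_lt.mp hf) ((hv.nonneg f).trans (hvv' f))
      rw [h0, zero_mul, mul_zero]
  obtain ⟨c'', hc''def⟩ : ∃ c'', c'' = pair k v' := ⟨_, rfl⟩
  have hc'' : c < c'' := by rw [hc''def]; exact hkc'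
  -- the big set
  let S' : Finset H := S ∪ (k1.support.filter fun s => 0 < v s)
  have hS' : S'.Nonempty := hS.mono Finset.subset_union_left
  have hS'v : ∀ s ∈ S', 0 < v s := by
    intro s hs
    rcases Finset.mem_union.mp hs with h1 | h1
    · exact hvS s h1
    · exact (Finset.mem_filter.mp h1).2
  let Sg : Finset H := insert g S'
  have hSg : Sg.Nonempty := Finset.insert_nonempty _ _
  have hSgv : ∀ s ∈ Sg, 0 < v' s := by
    intro s hs
    rcases Finset.mem_insert.mp hs with h1 | h1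
    · rw [h1, hv'g]; linarith
    · exact lt_of_lt_of_le (hS'v s h1) (hvv' s)
  have hk1S : k1.support ⊆ Sg := by
    intro s hs
    by_cases hsg : s = g
    · rw [hsg]; exact Finset.mem_insert_self _ _
    · refine Finset.mem_insert_of_mem (Finset.mem_union_right _ (Finset.mem_filter.mpr ⟨hs, ?_⟩))
      have h1 : s ∈ k.support ∧ 0 < v' s := by
        simpa only [k1, Finsupp.support_filter, Finset.mem_filter] using hs
      rw [← hv'ne s hsg]
      exact h1.2
  have hI1 := h.li_mx_of_mem hSg hSgv hk1 hk1S hk1mem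
  rw [hk1pair, ← hc''def] at hI1
  obtain ⟨c₁, hc₁def⟩ : ∃ c₁, c₁ = min c'' (c' - t * (v g + δ)) := ⟨_, rfl⟩
  have hc₁ : c < c₁ := by
    rw [hc₁def]
    refine lt_min hc'' ?_
    have : t * (v g + δ) = t * v g + t * δ := by ring
    rw [this, htδ]
    linarith
  have hc₁pos : 0 < c₁ := lt_of_le_of_lt hc0 hc₁
  obtain ⟨C, hC0, hC⟩ := h.mx_bdd S' hS' v hS'v
  obtain ⟨C2, hC20, hC2⟩ := h.mx_bdd Sg hSg v' hSgv
  have hmain : LI μ l fun x => ENNReal.ofReal (Real.exp (-2 * (c₁ * mx ev S' hS' v x))) := by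
    have hsum : LI μ l fun x => ENNReal.ofReal (Real.exp (2 * (c'' * C))) *
        ENNReal.ofReal (Real.exp (-2 * (c'' * mx ev Sg hSg v' x))) +
        ENNReal.ofReal (Real.exp (2 * (c' * C))) *
        (ENNReal.ofReal (Real.exp (2 * (t * Real.log ‖ev g x‖))) *
          ENNReal.ofReal (Real.exp (-2 * (c' * mx ev S hS v x)))) := by
      refine LI.add ?_ (LI.const_mul ENNReal.ofReal_ne_top hI1)
        (LI.const_mul ENNReal.ofReal_ne_top hcon)
      choose U hU hm using h.meas
      refine ⟨⋂ f ∈ Sg, U f, (biInter_finset_mem _).mpr fun f _ => hU f, ?_⟩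
      refine AEMeasurable.const_mul ?_ _
      refine (Real.measurable_exp.comp_aemeasurable (AEMeasurable.const_mul
        (AEMeasurable.const_mul ?_ _) _)).ennreal_ofReal
      have : mx ev Sg hSg v' = Sg.sup' hSg fun s x => Real.log ‖ev s x‖ / v' s := by
        funext x
        rw [Finset.sup'_apply]
        rfl
      rw [this]
      refine Finset.sup'_induction (p := fun f => AEMeasurable f (μ.restrict (⋂ f ∈ Sg, U f)))
        hSg _ (fun f hf g hg => AEMeasurable.sup hf hg) fun s hs => ?_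
      refine AEMeasurable.div_const (Real.measurable_log.comp_aemeasurable ?_) _
      exact ((hm s).mono_measure (Measure.restrict_mono_set _
        (Set.biInter_subset_of_mem (s := (Sg : Set H)) (t := U) hs))).norm
    refine LI.mono h.bas ?_ hsum
    filter_upwards [hC] with x hx
    rcases le_or_gt (Real.log ‖ev g x‖) ((v g + δ) * mx ev S' hS' v x) with hcase | hcase
    · -- here `mx Sg v' ≤ mx S' v` up to nothing
      refine le_trans ?_ (le_add_of_nonneg_right (zero_le))
      rw [← ENNReal.ofReal_mul (by positivity), ← Real.exp_add]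
      apply ENNReal.ofReal_le_ofReal
      apply Real.exp_le_exp.mpr
      have hle : mx ev Sg hSg v' x ≤ mx ev S' hS' v x := by
        refine Finset.sup'_le _ _ fun s hs => ?_
        by_cases hsg : s = g
        · rw [hsg, hv'g, div_le_iff₀ (by linarith)]
          linarith
        · rw [hv'ne s hsg]
          exact Finset.le_sup' (fun s => Real.log ‖ev s x‖ / v s)
            ((Finset.mem_insert.mp hs).resolve_left hsg)
      have h1 : c'' * mx ev Sg hSg v' x ≤ c'' * mx ev S' hS' v x :=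
        mul_le_mul_of_nonneg_left hle (hc0.trans hc''.le)
      have h2 : (c'' - c₁) * mx ev S' hS' v x ≤ (c'' - c₁) * C :=
        mul_le_mul_of_nonneg_left hx (by rw [hc₁def]; linarith [min_le_left c'' (c' - t * (v g + δ))])
      have h3 : (c'' - c₁) * C ≤ c'' * C := mul_le_mul_of_nonneg_right (by linarith) hC0
      linarith
    · refine le_trans ?_ (le_add_of_nonneg_left (zero_le))
      rw [← ENNReal.ofReal_mul (by positivity), ← ENNReal.ofReal_mul (by positivity),
        ← Real.exp_add, ← Real.exp_add]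
      apply ENNReal.ofReal_le_ofReal
      apply Real.exp_le_exp.mpr
      have hle : mx ev S hS v x ≤ mx ev S' hS' v x :=
        mx_mono ev hS hS' Finset.subset_union_left v x
      have hc'pos : 0 ≤ c' := by
        have := mul_nonneg ht.le hvg
        linarith
      have h1 : c' * mx ev S hS v x ≤ c' * mx ev S' hS' v x :=
        mul_le_mul_of_nonneg_left hle hc'pos
      have h2 : (c' - t * (v g + δ) - c₁) * mx ev S' hS' v x ≤ (c' - t * (v g + δ) - c₁) * C :=
        mul_le_mul_of_nonneg_left hx (by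
          rw [hc₁def]; linarith [min_le_right c'' (c' - t * (v g + δ))])
      have h3 : (c' - t * (v g + δ) - c₁) * C ≤ c' * C := by
        apply mul_le_mul_of_nonneg_right _ hC0
        have : 0 ≤ t * (v g + δ) := by positivity
        linarith
      have h4 : t * ((v g + δ) * mx ev S' hS' v x) ≤ t * Real.log ‖ev g x‖ :=
        mul_le_mul_of_nonneg_left hcase.le ht.le
      nlinarith
  obtain ⟨kk, hkk, hkk0, hkkS, hkkp⟩ := hA10 S' hS' v hS'v c₁ hc₁pos hmain ((c₁ - c) / 2)
    (by linarith)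
  rw [← hD] at hkk
  have := hv.le kk hkk hkk0
  linarith

/-- the threshold of the max-weight of a saturated `v` is at most `c`. -/
theorem not_li_mx_of_sat {D : Dat H} (hD : D.P = PP μ l ev)
    (hA10 : ∀ (S : Finset H) (hS : S.Nonempty) (w : H → ℝ), (∀ s ∈ S, 0 < w s) → ∀ c : ℝ, 0 < c →
      (LI μ l fun x => ENNReal.ofReal (Real.exp (-2 * (c * mx ev S hS w x)))) →
      ∀ ε : ℝ, 0 < ε → ∃ k ∈ PP μ l ev, (∀ f, 0 ≤ k f) ∧ k.support ⊆ S ∧ c - ε ≤ pair k w)
    {v : H → ℝ} {c : ℝ} (hv : D.Le v c) (hc : 0 ≤ c) {S : Finset H} (hS : S.Nonempty)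
    (hvS : ∀ s ∈ S, 0 < v s) {c' : ℝ} (hc' : c < c') :
    ¬ LI μ l fun x => ENNReal.ofReal (Real.exp (-2 * (c' * mx ev S hS v x))) := by
  intro hcon
  obtain ⟨k, hk, hk0, -, hkp⟩ := hA10 S hS v hvS c' (by linarith) hcon ((c' - c) / 2)
    (by linarith)
  rw [← hD] at hk
  have := hv k hk hk0
  linarith

end IsEv

end Vale.Agent.P271.Zorn
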